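import Vale.Agent.P092.SD.Defs

/-!
P092, Team D, [XC-5]: the vector state `⟪· Ω, Ω⟫` of the fixed algebra `𝓜` is invariant under the
source group: (TV) `⟪Y (π h Ω), π h Ω⟫ = ⟪Y Ω, Ω⟫` for `Y` in `MM lam W`. It follows from `tr_conj`
of `RC.Pic` and the multiplication operators `Ms`.
-/

set_option linter.all false

open scoped InnerProductSpace ENNReal
open Filter Topology ContinuousLinearMap MeasureTheory TopologicalSpace

namespace Vale.Agent.P092.H544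

open Vale.Agent.P092.SD (Ms MM)
open Vale.Agent.P092.RC (Cm TRN Moore Pic)

theorem enorm_sq_ofReal {E : Type} [NormedAddCommGroup E] (x : E) :
    ‖x‖ₑ ^ 2 = ENNReal.ofReal (‖x‖ ^ 2) := by
  rw [← ofReal_norm_eq_enorm, ENNReal.ofReal_pow (norm_nonneg _)]

section pars

variable {Γ K : Type} [Group Γ] [NormedAddCommGroup K] [InnerProductSpace ℂ K] [CompleteSpace K]
  {lam : Γ →* (K →L[ℂ] K)} {W : Set (K →L[ℂ] K)} {Ω : K} {m : Set Γ → (K →L[ℂ] K)}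

theorem ms_empty (hm : Ms lam W Ω m) : m ∅ = 0 := by
  have h1 := hm.inf Set.univ Set.univᶜ
  rw [Set.inter_compl_self, hm.compl] at h1
  have h2 := hm.inf Set.univ Set.univ
  rw [Set.inter_self] at h2
  rw [h1, mul_sub, mul_one, ← h2, sub_self]

theorem ms_union (hm : Ms lam W Ω m) {S T : Set Γ} (h : Disjoint S T) :
    m (S ∪ T) = m S + m T := by
  have h1 : m (S ∪ T) = 1 - (1 - m S) * (1 - m T) := by
    rw [← hm.compl S, ← hm.compl T, ← hm.inf, ← Set.compl_union, hm.compl, sub_sub_cancel]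
  have h2 : m S * m T = 0 := by
    rw [← hm.inf, Set.disjoint_iff_inter_eq_empty.mp h, ms_empty hm]
  rw [h1, sub_mul, one_mul, mul_sub, mul_one, h2]
  abel

/-- Pythagoras -/
theorem ms_pyth (hm : Ms lam W Ω m) {S T : Set Γ} (h : Disjoint S T) (ξ : K) :
    ‖m (S ∪ T) ξ‖ ^ 2 = ‖m S ξ‖ ^ 2 + ‖m T ξ‖ ^ 2 := by
  rw [ms_union hm h]
  have h2 : ⟪m S ξ, m T ξ⟫_ℂ = 0 := by
    have h3 : m S (m T ξ) = 0 := by
      change (m S * m T) ξ = 0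
      rw [← hm.inf, Set.disjoint_iff_inter_eq_empty.mp h, ms_empty hm,
        ContinuousLinearMap.zero_apply]
    rw [← adjoint_inner_right, hm.adj, h3, inner_zero_right]
  have := norm_add_sq_eq_norm_sq_add_norm_sq_of_inner_eq_zero (𝕜 := ℂ) (m S ξ) (m T ξ) h2
  simp only [ContinuousLinearMap.add_apply]
  rw [pow_two, pow_two, pow_two]
  exact this

theorem ms_fin (hm : Ms lam W Ω m) (F : Finset Γ) (ξ : K) :
    ‖m (F : Set Γ) ξ‖ ^ 2 = ∑ γ ∈ F, ‖m {γ} ξ‖ ^ 2 := by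
  classical
  induction F using Finset.induction_on with
  | empty => simp [ms_empty hm]
  | insert a s ha ih =>
    rw [Finset.sum_insert ha, Finset.coe_insert, Set.insert_eq, ms_pyth hm, ih]
    simpa using ha

theorem ms_compl_sq (hm : Ms lam W Ω m) (S : Set Γ) (ξ : K) :
    ‖m S ξ‖ ^ 2 + ‖m Sᶜ ξ‖ ^ 2 = ‖ξ‖ ^ 2 := by
  rw [← ms_pyth hm disjoint_compl_right ξ, Set.union_compl_self]
  have : m Set.univ = 1 := by
    rw [← Set.compl_empty, hm.compl, ms_empty hm, sub_zero]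
  rw [this, ContinuousLinearMap.one_apply]

/-- Parseval -/
theorem ms_parseval (hm : Ms lam W Ω m) (ξ : K) :
    HasSum (fun γ => ‖m {γ} ξ‖ ^ 2) (‖ξ‖ ^ 2) := by
  classical
  rw [HasSum, SummationFilter.unconditional_filter, Metric.tendsto_atTop]
  intro ε hε
  obtain ⟨F, hF⟩ := hm.fin ξ (Real.sqrt (ε / 2)) (Real.sqrt_pos.mpr (by positivity))
  refine ⟨F, fun F' hF' => ?_⟩
  rw [← ms_fin hm, dist_eq_norm, Real.norm_eq_abs]
  have h1 := ms_compl_sq hm (F' : Set Γ) ξ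
  have h2 : ‖m (F' : Set Γ)ᶜ ξ‖ ≤ ‖m (F : Set Γ)ᶜ ξ‖ := by
    have h3 : (F : Set Γ)ᶜ = (F' : Set Γ)ᶜ ∪ ((F' : Set Γ) \ F) := by
      ext x
      have : x ∈ F → x ∈ F' := fun hx => hF' hx
      simp only [Set.mem_compl_iff, Finset.mem_coe, Set.mem_union, Set.mem_diff]
      tauto
    have h4 := ms_pyth hm (S := (F' : Set Γ)ᶜ) (T := ((F' : Set Γ) \ F))
      (Set.disjoint_left.mpr fun x hx hx' => hx hx'.1) ξ
    rw [← h3] at h4
    exact abs_le_of_sq_le_sq' (by nlinarith [sq_nonneg ‖m ((F' : Set Γ) \ F) ξ‖])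
      (norm_nonneg _) |>.2
  have h5 : ‖m (F' : Set Γ)ᶜ ξ‖ ^ 2 ≤ ε / 2 := by
    have h6 := h2.trans hF
    calc ‖m (F' : Set Γ)ᶜ ξ‖ ^ 2 ≤ Real.sqrt (ε / 2) ^ 2 := by
          exact pow_le_pow_left₀ (norm_nonneg _) h6 2
      _ = ε / 2 := Real.sq_sqrt (by positivity)
  rw [abs_sub_comm, abs_of_nonneg (by nlinarith [sq_nonneg ‖m (F' : Set Γ)ᶜ ξ‖])]
  nlinarith

theorem ms_parseval_enn (hm : Ms lam W Ω m) (ξ : K) :
    ∑' γ, ‖m {γ} ξ‖ₑ ^ 2 = ‖ξ‖ₑ ^ 2 := by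
  have h := ms_parseval hm ξ
  simp only [enorm_sq_ofReal]
  rw [← ENNReal.ofReal_tsum_of_nonneg (fun _ => by positivity) h.summable, h.tsum_eq]

end pars

section tv

variable {G Γ K : Type} [Group G] [TopologicalSpace G] [Group Γ] [NormedAddCommGroup K]
  [InnerProductSpace ℂ K] [CompleteSpace K] {π : G →* (K →L[ℂ] K)} {lam : Γ →* (K →L[ℂ] K)}
  {W : Set (K →L[ℂ] K)} {Ω : K} {m : Set Γ → (K →L[ℂ] K)}

theorem pi_isom (hP : Pic π lam W Ω) (g : G) (ξ : K) : ‖π g ξ‖ = ‖ξ‖ := by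
  have h1 : ⟪π g ξ, π g ξ⟫_ℂ = ⟪ξ, ξ⟫_ℂ := by
    have h3 : π g⁻¹ (π g ξ) = ξ := by
      change (π g⁻¹ * π g) ξ = ξ
      rw [← map_mul, inv_mul_cancel, map_one, ContinuousLinearMap.one_apply]
    rw [← adjoint_inner_right, hP.adjP, h3]
  rw [inner_self_eq_norm_sq_to_K, inner_self_eq_norm_sq_to_K] at h1
  have h2 : ‖π g ξ‖ ^ 2 = ‖ξ‖ ^ 2 := by exact_mod_cast h1
  exact (pow_left_inj₀ (norm_nonneg _) (norm_nonneg _) two_ne_zero).mp h2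

theorem lam_isom (hP : Pic π lam W Ω) (g : Γ) (ξ : K) : ‖lam g ξ‖ = ‖ξ‖ := by
  have h1 : ⟪lam g ξ, lam g ξ⟫_ℂ = ⟪ξ, ξ⟫_ℂ := by
    have h3 : lam g⁻¹ (lam g ξ) = ξ := by
      change (lam g⁻¹ * lam g) ξ = ξ
      rw [← map_mul, inv_mul_cancel, map_one, ContinuousLinearMap.one_apply]
    rw [← adjoint_inner_right, hP.adjL, h3]
  rw [inner_self_eq_norm_sq_to_K, inner_self_eq_norm_sq_to_K] at h1
  have h2 : ‖lam g ξ‖ ^ 2 = ‖ξ‖ ^ 2 := by exact_mod_cast h1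
  exact (pow_left_inj₀ (norm_nonneg _) (norm_nonneg _) two_ne_zero).mp h2

/-- the trace of `Z* m {1} Z`, conjugated by `π g` -/
theorem trn_cut (hP : Pic π lam W Ω) (hm : Ms lam W Ω m) {Z : K →L[ℂ] K}
    (hZ : ∀ γ, Z * lam γ = lam γ * Z) (g : G) :
    TRN lam Ω (π g * (m {1} * Z) * π g⁻¹) = ‖Z (π g⁻¹ Ω)‖ₑ ^ 2 := by
  have key : ∀ γ, ‖(π g * (m {1} * Z) * π g⁻¹) (lam γ Ω)‖ₑ ^ 2 =
      ‖m {γ⁻¹} (Z (π g⁻¹ Ω))‖ₑ ^ 2 := by
    intro γ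
    have h1 : (π g * (m {1} * Z) * π g⁻¹) (lam γ Ω) =
        π g (lam γ (m {γ⁻¹} (Z (π g⁻¹ Ω)))) := by
      have h2 := hm.cov γ {γ⁻¹}
      have h3 : (fun x => γ * x) '' {γ⁻¹} = ({1} : Set Γ) := by simp
      rw [h3] at h2
      have h4 : m {1} * lam γ = lam γ * m {γ⁻¹} := by
        rw [← h2, mul_assoc, ← map_mul, inv_mul_cancel, map_one, mul_one]
      have h5 : (π g * (m {1} * Z) * π g⁻¹) * lam γ = π g * (lam γ * (m {γ⁻¹} * (Z * π g⁻¹))) := by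
        calc (π g * (m {1} * Z) * π g⁻¹) * lam γ = π g * m {1} * Z * (π g⁻¹ * lam γ) := by
              simp only [mul_assoc]
          _ = π g * m {1} * (Z * lam γ) * π g⁻¹ := by rw [hP.comm]; simp only [mul_assoc]
          _ = π g * (m {1} * lam γ) * (Z * π g⁻¹) := by rw [hZ]; simp only [mul_assoc]
          _ = _ := by rw [h4]; simp only [mul_assoc]
      exact congrArg (fun T : K →L[ℂ] K => T Ω) h5
    rw [h1, ← ofReal_norm_eq_enorm, ← ofReal_norm_eq_enorm, pi_isom hP, lam_isom hP]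
  unfold TRN
  rw [tsum_congr key, ← ms_parseval_enn hm (Z (π g⁻¹ Ω))]
  exact (Equiv.inv Γ).tsum_eq fun γ => ‖m {γ} (Z (π g⁻¹ Ω))‖ₑ ^ 2

/-- `‖Z π(h) Ω‖ = ‖Z Ω‖` for `Z` in the fixed algebra -/
theorem norm_tv (hP : Pic π lam W Ω) (hm : Ms lam W Ω m) {Z : K →L[ℂ] K} (hZ : Z ∈ MM lam W)
    (h : G) : ‖Z (π h Ω)‖ = ‖Z Ω‖ := by
  have hc : Cm W (m {1} * Z) := fun w hw => by
    rw [mul_assoc, hZ.1 w hw, ← mul_assoc, hm.cm _ w hw, mul_assoc]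
  have h1 := hP.tr_conj _ hc h⁻¹
  have h2 := trn_cut hP hm hZ.2 h⁻¹
  have h3 := trn_cut hP hm hZ.2 1
  rw [inv_inv] at h2
  rw [inv_one, map_one, one_mul, mul_one, ContinuousLinearMap.one_apply] at h3
  rw [inv_inv] at h1
  rw [h1, h3, ← ofReal_norm_eq_enorm, ← ofReal_norm_eq_enorm, ← ENNReal.ofReal_pow (norm_nonneg _),
    ← ENNReal.ofReal_pow (norm_nonneg _), ENNReal.ofReal_eq_ofReal_iff (by positivity)
      (by positivity)] at h2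
  exact ((pow_left_inj₀ (norm_nonneg _) (norm_nonneg _) two_ne_zero).mp h2).symm

theorem mm_add {Y Z : K →L[ℂ] K} (hY : Y ∈ MM lam W) (hZ : Z ∈ MM lam W) :
    Y + Z ∈ MM lam W :=
  ⟨fun w hw => by rw [add_mul, mul_add, hY.1 w hw, hZ.1 w hw],
    fun γ => by rw [add_mul, mul_add, hY.2, hZ.2]⟩

theorem mm_smul (c : ℂ) {Y : K →L[ℂ] K} (hY : Y ∈ MM lam W) : c • Y ∈ MM lam W :=
  ⟨fun w hw => by rw [smul_mul_assoc, mul_smul_comm, hY.1 w hw],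
    fun γ => by rw [smul_mul_assoc, mul_smul_comm, hY.2]⟩

theorem mm_one : (1 : K →L[ℂ] K) ∈ MM lam W :=
  ⟨fun w _ => by rw [one_mul, mul_one], fun γ => by rw [one_mul, mul_one]⟩

/-- polarised form -/
theorem tv₂ (hP : Pic π lam W Ω) (hm : Ms lam W Ω m) {Y Z : K →L[ℂ] K} (hY : Y ∈ MM lam W)
    (hZ : Z ∈ MM lam W) (h : G) : ⟪Y (π h Ω), Z (π h Ω)⟫_ℂ = ⟪Y Ω, Z Ω⟫_ℂ := by
  have key : ∀ T ∈ MM lam W, ‖T (π h Ω)‖ = ‖T Ω‖ := fun T hT => norm_tv hP hm hT h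
  rw [inner_eq_sum_norm_sq_div_four, inner_eq_sum_norm_sq_div_four]
  have e1 := key _ (mm_add hY hZ)
  have e2 := key _ (mm_add hY (mm_smul (-1) hZ))
  have e3 := key _ (mm_add hY (mm_smul (-Complex.I) hZ))
  have e4 := key _ (mm_add hY (mm_smul Complex.I hZ))
  simp only [ContinuousLinearMap.add_apply, ContinuousLinearMap.smul_apply, neg_smul, one_smul,
    ← sub_eq_add_neg, ContinuousLinearMap.sub_apply] at e1 e2 e3 e4
  rw [RCLike.I_to_complex, e1, e2, e3, e4]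

/-- **(TV)** -/
theorem tv (hP : Pic π lam W Ω) (hm : Ms lam W Ω m) {Y : K →L[ℂ] K} (hY : Y ∈ MM lam W) (h : G) :
    ⟪Y (π h Ω), π h Ω⟫_ℂ = ⟪Y Ω, Ω⟫_ℂ := by
  have := tv₂ hP hm hY mm_one h
  simpa using this

theorem tv' (hP : Pic π lam W Ω) (hm : Ms lam W Ω m) {Y : K →L[ℂ] K} (hY : Y ∈ MM lam W) (h : G) :
    ⟪π h Ω, Y (π h Ω)⟫_ℂ = ⟪Ω, Y Ω⟫_ℂ := by
  have := tv₂ hP hm mm_one hY h
  simpa using this

end tv

end Vale.Agent.P092.H544
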